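import Vale.Agent.P097.Rigid.Main

/-!
Infinitesimal rigidity, to all orders, of the disc among tables with invariant curves in a
neighbourhood of the boundary, whatever the size of that neighbourhood.
-/

namespace Vale.Agent.Results.P097.InfinitesimalRigidity

open Vale.Agent.P097 Vale.Agent.P097.Rigid Filter Topology PowerSeries

/-- A smooth deformation of the disc through tables with invariant curves below a fixed angle has,
at every order `k`, a trigonometric polynomial of degree at most `2 k` as its derivative in the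
parameter; with a symmetry of order at least three all these derivatives are constants. -/
theorem result (h : ℝ → ℝ → ℝ)
    (hsmooth : ContDiff ℝ (⊤ : ℕ∞) fun q : ℝ × ℝ => h q.1 q.2)
    (h0 : ∀ ψ, h 0 ψ = 1) (η : ℝ) (hη : 0 < η)
    (hcur : ∀ᶠ t in 𝓝 0, IsTable (h t) ∧ CurvesBelow (h t) η) :
    (∀ k : ℕ, ∃ c : ℤ → ℂ, ∀ ψ : ℝ,
      ((iteratedDeriv k (fun t => h t ψ) 0 : ℝ) : ℂ) =
        ∑ a ∈ Finset.Icc (-(2 * k : ℤ)) (2 * k),
          c a * Complex.exp ((a : ℂ) * ((ψ : ℂ) * Complex.I))) ∧
    (∀ s : ℕ, 3 ≤ s → (∀ᶠ t in 𝓝 0, Function.Periodic (h t) (2 * Real.pi / s)) →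
      ∀ (k : ℕ) (ψ ψ' : ℝ),
        iteratedDeriv k (fun t => h t ψ) 0 = iteratedDeriv k (fun t => h t ψ') 0) := by
  obtain ⟨F, hall⟩ := exists_full hsmooth hcur hη h0
  have hder : ∀ (k : ℕ) (ψ : ℝ),
      iteratedDeriv k (fun t => h t ψ) 0 = (k.factorial : ℝ) * jet h k ψ := by
    intro k ψ
    have e : ∀ k, iteratedDeriv k (fun t => h t ψ)
        = fun t => dt^[k] (Function.uncurry h) (t, ψ) := fun k => by
      induction k with
      | zero => simp
      | succ k ih =>
        funext t
        rw [iteratedDeriv_succ, ih, Function.iterate_succ_apply']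
        exact (hasDerivAt_dt (contDiff_iter (Q := Function.uncurry h) hsmooth k) t ψ).deriv
    rw [e, jet, tay]
    field_simp
  have hval : ∀ (k : ℕ), 0 < k → ∀ ψ, ((iteratedDeriv k (fun t => h t ψ) 0 : ℝ) : ℂ)
      = (k.factorial : ℂ) * evT ψ (coeff k F) := fun k hk ψ => by
    rw [hder, Complex.ofReal_mul, Complex.ofReal_natCast,
      (hall (k + 1) k.succ_pos).eq k hk k.lt_succ_self]
  refine ⟨fun k => ?_, fun s hs hper k ψ ψ' => ?_⟩
  · rcases Nat.eq_zero_or_pos k with rfl | hk
    · exact ⟨fun _ => 1, fun ψ => by simp [h0]⟩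
    refine ⟨fun a => (k.factorial : ℂ) * (coeff k F).coeff a, fun ψ => ?_⟩
    rw [hval k hk, evT_apply, Finsupp.sum, Finset.mul_sum]
    simp only [← mul_assoc]
    refine Finset.sum_subset (fun a ha => ?_) fun a _ ha => ?_
    · have := degree_le hsmooth hcur hη hall k a (Finsupp.mem_support_iff.1 ha)
      rw [Finset.mem_Icc]
      omega
    · rw [Finsupp.notMem_support_iff.1 ha, mul_zero, zero_mul]
  · rcases Nat.eq_zero_or_pos k with rfl | hk
    · simp [h0]
    refine Complex.ofReal_injective ?_
    rw [hval k hk, hval k hk]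
    congr 1
    rw [evT_apply, evT_apply]
    refine Finsupp.sum_congr fun a ha => ?_
    rw [symmetric_const hsmooth hcur hη hall hs hper k a (Finsupp.mem_support_iff.1 ha)]
    simp

end Vale.Agent.Results.P097.InfinitesimalRigidity
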