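import Vale.Agent.P097.Ellipse

/-!
A table with invariant curves near the boundary which contains an ellipse and touches it at the
vertices of one periodic billiard orbit of the ellipse with small angle is that ellipse.
-/

namespace Vale.Agent.Results.P097.InscribedEllipse

open Vale.Agent.P097 Real

/-- Near-boundary invariant curves and an inscribed ellipse touching along one periodic orbit force
the table to be the ellipse. -/
theorem result (h : ℝ → ℝ) (hh : IsTable h) (η : ℝ) (hcur : CurvesBelow h η)
    (a b c : ℝ) (ha : 0 < a) (hb : 0 < b) (hc : 0 < c) (hca : c * a < 1) (hcb : c * b < 1)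
    (k p : ℕ) (hk : 1 ≤ k) (z : ℕ → ℝ) (hzk : z k = z 0 + 2 * π * p)
    (horb : ∀ j < k,
      Step (ellH a b) (z j, ellE a b c (z j)) (z (j + 1), ellE a b c (z (j + 1))))
    (hsmall : ellE a b c (z 0) < η) (hin : ∀ ψ, ellH a b ψ ≤ h ψ)
    (htouch : ∀ j < k, h (z j) = ellH a b (z j)) : ∀ ψ, h ψ = ellH a b ψ :=
  inscribed_eq hh (ell_table ha hb) (ell_curve ha hb hc hca hcb).1 hcur hk
    (ell_fullyPeriodic ha hb hc hca hcb hzk horb) hzk horb hsmall hin htouch

end Vale.Agent.Results.P097.InscribedEllipse
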