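import Vale.Agent.P097.Regular

/-!
Near-boundary invariant curves: regular polygon orbits maximise, and symmetric tables are discs.
-/

namespace Vale.Agent.Results.P097.SymmetricTablesAreDiscs

open Vale.Agent.P097 Real Finset

/-- If every phase point with angle below `η` lies on an invariant curve and `π / k < η`, then a
regular `k`-gon billiard orbit maximises the sum of the support function over regular `k`-gons; in
particular a table with rotational symmetry of order `k` is a disc. -/
theorem result (h : ℝ → ℝ) (hh : IsTable h) (k : ℕ) (hk : 2 ≤ k) (η : ℝ) (hη : π / k < η)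
    (hc : CurvesBelow h η) :
    (∀ ψ₀ : ℝ, (∀ j : ℕ, deriv h (ψ₀ + 2 * π * j / k) = 0) →
      (∀ j : ℕ, h (ψ₀ + 2 * π * j / k) = h ψ₀) →
      ∀ ψ : ℝ, ∑ j ∈ range k, h (ψ + 2 * π * j / k) ≤ k * h ψ₀) ∧
    (Function.Periodic h (2 * π / k) → ∀ ψ, h ψ = h 0) :=
  ⟨fun _ h0 he => regular_max hh hk hη hc h0 he, symmetric_disc hh hk hη hc⟩

end Vale.Agent.Results.P097.SymmetricTablesAreDiscs
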